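import Vale.Agent.P004R.Shf
import Vale.Agent.P004M.TE.Tate
import Vale.Agent.P022K.G2.Tr

/-! # P004F, row DPL: operators on points, character sums -/

set_option linter.all false

open NumberField Polynomial
open scoped Classical

noncomputable section

namespace Vale.Agent.P004F.Dp

open Vale.Agent.P022 Vale.Agent.P004K
open Vale.Agent.P022K.G2 (Tv Nz)
open P004M.TE (Pt ga ga_mul ga_one)
open Qx (zf Fk op gE dep)
open P004R.Sf

section ops

variable {A B : ℤ} {Γ : Subgroup GQ} {N : ℕ} {a : ℕ → ℤ} {φ : ℕ → GQ} {y : Pt A B}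

theorem op_ap (p : ℕ) (ψ : GQ) (y : Pt A B) :
    op N a p ψ y = p • y - a p • ga ψ y + if p ∣ N then 0 else ga ψ (ga ψ y) := by
  rw [← ga_mul]
  unfold op
  split_ifs <;> rfl

/-- `Γ` acts on `y` through an abelian group -/
def Ab (Γ : Subgroup GQ) (y : Pt A B) : Prop :=
  ∀ g ∈ Γ, ∀ h ∈ Γ, ga g (ga h y) = ga h (ga g y)

theorem Ab.ga (h : Ab Γ y) {g : GQ} (hg : g ∈ Γ) : Ab Γ (ga g y) := fun s hs t ht => by
  rw [← h g hg t ht, ← ga_mul s, h _ (mul_mem hs hg) t ht, ga_mul]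

/-- the product of the operators -/
def lp (N : ℕ) (a : ℕ → ℤ) (φ : ℕ → GQ) (L : List ℕ) : AddMonoid.End (Pt A B) :=
  (L.map fun p => op N a p (φ p)).prod

theorem lp_cons (p : ℕ) (L : List ℕ) (y : Pt A B) :
    lp N a φ (p :: L) y = op N a p (φ p) (lp N a φ L y) := rfl

theorem op_comm (f : Pt A B →+ Pt A B) {ψ : GQ} (h1 : ga ψ (f y) = f (ga ψ y))
    (h2 : ga ψ (f (ga ψ y)) = f (ga ψ (ga ψ y))) (p : ℕ) :
    op N a p ψ (f y) = f (op N a p ψ y) := by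
  rw [op_ap, op_ap, h1, h2]
  split_ifs <;> simp

theorem lp_ga {L : List ℕ} (hL : ∀ p ∈ L, φ p ∈ Γ) : ∀ y : Pt A B, Ab Γ y → ∀ g ∈ Γ,
    ga g (lp N a φ L y) = lp N a φ L (ga g y) := by
  induction L with
  | nil => exact fun _ _ _ _ => rfl
  | cons p L ih =>
    intro y hy g hg
    have i := ih fun q m => hL q (List.mem_cons_of_mem _ m)
    have m := hL p List.mem_cons_self
    have ab : Ab Γ (lp N a φ L y) := fun s hs t ht => by
      rw [i y hy t ht, i y hy s hs, i _ (hy.ga ht) s hs, i _ (hy.ga hs) t ht, hy s hs t ht]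
    rw [lp_cons, lp_cons, ← i y hy g hg,
      op_comm (ga g) (ab _ m g hg) ((ab.ga m) _ m g hg)]

theorem lp_ab {L : List ℕ} (hL : ∀ p ∈ L, φ p ∈ Γ) (hy : Ab Γ y) : Ab Γ (lp N a φ L y) :=
  fun s hs t ht => by
  rw [lp_ga hL y hy t ht, lp_ga hL y hy s hs, lp_ga hL _ (hy.ga ht) s hs,
    lp_ga hL _ (hy.ga hs) t ht, hy s hs t ht]

theorem lp_split {L : List ℕ} (hL : ∀ p ∈ L, φ p ∈ Γ) (hy : Ab Γ y) (δ : ℕ) : lp N a φ L y =
    lp N a φ (L.filter fun p => p ∣ δ) (lp N a φ (L.filter fun p => ¬ p ∣ δ) y) := by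
  induction L with
  | nil => rfl
  | cons p L ih =>
    have k : ∀ q ∈ L, φ q ∈ Γ := fun q m => hL q (List.mem_cons_of_mem _ m)
    have m := hL p List.mem_cons_self
    have k1 : ∀ q ∈ L.filter fun p => p ∣ δ, φ q ∈ Γ := fun q h => k q (List.mem_of_mem_filter h)
    have ab := lp_ab (N := N) (a := a) (L := L.filter fun p => ¬ p ∣ δ)
      (fun q h => k q (List.mem_of_mem_filter h)) hy
    rw [lp_cons, ih k]
    by_cases h : p ∣ δ
    · simp only [List.filter_cons, h, decide_true, not_true, decide_false, if_true]; rfl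
    · simp only [List.filter_cons, h, decide_true, not_false_iff, decide_false, if_true]
      exact op_comm (lp N a φ _) (lp_ga k1 _ ab _ m) (lp_ga k1 _ (ab.ga m) _ m) p

theorem dep_ap (w : ℕ) (L : List ℕ) (y : Pt A B) :
    dep N w a L φ y = (w * L.prod) • lp N a φ L y := rfl

end ops

section res

variable {P : Ideal (𝓞 Qb)} [hP : P.IsPrime]

theorem rs_eq {a b : Qb} (h : P004K.Ip P a) (h' : P004K.Ip P b) (e : Zp P (a - b)) :
    rs P a = rs P b := Ideal.Quotient.eq.2 (show Zp P _ by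
  rw [AddSubgroupClass.coe_sub, lf_coe h, lf_coe h']; exact e)

theorem rs_sub {a b : Qb} (h : P004K.Ip P a) (h' : P004K.Ip P b) :
    rs P (a - b) = rs P a - rs P b := by
  rw [eq_sub_iff_add_eq, ← rs_add ((Ao P).sub_mem h h') h', sub_add_cancel]

theorem rs_odd (h2 : (2 : 𝓞 Qb) ∈ P) {a : Qb} (h : P004K.Ip P a) {d : ℕ} (hd : Odd d) :
    P004K.Ip P (a / d) ∧ rs P (a / d) = rs P a := by
  obtain ⟨k, rfl⟩ := hd
  have d0 : ((2 * k + 1 : ℕ) : Qb) ≠ 0 := Nat.cast_ne_zero.2 (by omega)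
  have d1 : ((2 * k + 1 : ℕ) : 𝓞 Qb) ∉ P := fun m => hP.one_notMem (by
    simpa using sub_mem m (P.mul_mem_right (k : 𝓞 Qb) h2))
  obtain ⟨s, t, hs, e⟩ := id h
  have i : P004K.Ip P (a / (2 * k + 1 : ℕ)) := ⟨s * (2 * k + 1 : ℕ), t, hP.mul_notMem hs d1, by
    rw [← e, RingOfIntegers.coe_eq_algebraMap, map_mul, map_natCast]; field_simp⟩
  refine ⟨i, rs_eq i h ⟨s * (2 * k + 1 : ℕ), -(2 * (k * t)), hP.mul_notMem hs d1,
    neg_mem (P.mul_mem_right _ h2), ?_⟩⟩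
  simp only [RingOfIntegers.coe_eq_algebraMap, map_mul, map_natCast, map_neg, map_ofNat] at e ⊢
  rw [← e]; field_simp; push_cast; ring

theorem vn {R : Finset GQ} {l : ℕ} {χ : GQ → ℕ} {f : GQ → Qb} (h : ∀ g ∈ R, P004K.Ip P (f g)) :
    (∀ i < l, Zp P (∑ g ∈ R, ((χ g).choose i : Qb) * f g)) ↔
      X ^ l ∣ ∑ g ∈ R, (1 + X) ^ χ g * C (rs P (f g)) :=
  vn_iff (n := 0) (e := fun g => (χ g : ℤ)) h

end res

section th

variable {A B : ℤ} {Γ U U' : Subgroup GQ} {R : Type} [CommRing R] (F : AddSubgroup (Pt A B))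
  (lam : Pt A B → R) (ω : GQ → R)

/-- the character sum -/
def th (T : Finset GQ) (y : Pt A B) : R := ∑ g ∈ T, ω g * lam (ga g y)

variable (Γ) in
/-- the standing hypotheses -/
structure Ok : Prop where
  st : ∀ y ∈ F, ∀ g ∈ Γ, ga g y ∈ F
  sub : ∀ y ∈ F, ∀ y' ∈ F, lam (y - y') = lam y - lam y'
  mul : ∀ g ∈ Γ, ∀ h ∈ Γ, ω (g * h) = ω g * ω h

variable {F lam ω} (o : Ok Γ F lam ω) {T T' : Finset GQ} {y y' : Pt A B}
include o

/-- the sum as a homomorphism -/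
def Ok.hom (hT : ∀ g ∈ T, g ∈ Γ) : F →+ R := AddMonoidHom.ofMapSub (fun y => th lam ω T y)
  fun y y' => by
  simp only [th, ← Finset.sum_sub_distrib, AddSubgroupClass.coe_sub, map_sub]
  exact Finset.sum_congr rfl fun g m => by
    rw [o.sub _ (o.st _ y.2 g (hT g m)) _ (o.st _ y'.2 g (hT g m)), mul_sub]

theorem Ok.th_sub (hT : Tv Γ U T) (h : y ∈ F) (h' : y' ∈ F) :
    th lam ω T (y - y') = th lam ω T y - th lam ω T y' := map_sub (o.hom hT.mem) ⟨y, h⟩ ⟨y', h'⟩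

theorem Ok.th_add (hT : Tv Γ U T) (h : y ∈ F) (h' : y' ∈ F) :
    th lam ω T (y + y') = th lam ω T y + th lam ω T y' := map_add (o.hom hT.mem) ⟨y, h⟩ ⟨y', h'⟩

theorem Ok.th_z (hT : Tv Γ U T) (h : y ∈ F) (n : ℤ) : th lam ω T (n • y) = n * th lam ω T y :=
  (map_zsmul (o.hom hT.mem) n ⟨y, h⟩).trans (zsmul_eq_mul _ _)

theorem Ok.th_n (hT : Tv Γ U T) (h : y ∈ F) (n : ℕ) : th lam ω T (n • y) = n * th lam ω T y :=
  (map_nsmul (o.hom hT.mem) n ⟨y, h⟩).trans (nsmul_eq_mul _ _)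

theorem Ok.th_sum (hT : Tv Γ U T) (f : ℕ → Pt A B) (h : ∀ i, f i ∈ F) (n : ℕ) :
    th lam ω T (∑ i ∈ Finset.range n, f i) = ∑ i ∈ Finset.range n, th lam ω T (f i) := by
  induction n with
  | zero => exact map_zero (o.hom hT.mem)
  | succ n ih => rw [Finset.sum_range_succ, Finset.sum_range_succ,
      o.th_add hT (sum_mem fun i _ => h i) (h n), ih]

theorem Ok.inv (h1 : ∀ u ∈ U, ω u = 1) (hy : ∀ u ∈ U, ga u y = y) : ∀ g ∈ Γ, ∀ u ∈ Γ, u ∈ U →
    ω (g * u) * lam (ga (g * u) y) = ω g * lam (ga g y) := fun g hg u hu m => by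
  rw [o.mul g hg u hu, h1 u m, mul_one, ga_mul, hy u m]

theorem Ok.th_ga (hT : Tv Γ U T) (n : Nz Γ U) (h1 : ∀ u ∈ U, ω u = 1) (hy : ∀ u ∈ U, ga u y = y)
    {h : GQ} (hh : h ∈ Γ) : ω h * th lam ω T (ga h y) = th lam ω T y := by
  rw [th, th, ← hT.sum_mul' n hh (fun g => ω g * lam (ga g y)) (o.inv h1 hy), Finset.mul_sum]
  exact Finset.sum_congr rfl fun g m => by rw [o.mul g (hT.mem g m) h hh, ga_mul]; ring

theorem Ok.th_tr (hT : Tv Γ U T) (hT' : Tv Γ U' T') (le : U' ≤ U) (le' : U ≤ Γ)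
    (h1 : ∀ u ∈ U, ω u = 1) (hF : y ∈ F) (hy : ∀ u ∈ U', ga u y = y) {t : GQ} {n : ℕ} (n0 : 0 < n)
    (ht : t ∈ U) (g1 : ∀ i : ℕ, t ^ i ∈ U' ↔ n ∣ i) (g2 : ∀ g ∈ U, ∃ i : ℕ, g⁻¹ * t ^ i ∈ U') :
    th lam ω T' y = th lam ω T (∑ i ∈ Finset.range n, ga (t ^ i) y) := by
  rw [o.th_sum hT _ fun i => o.st y hF _ (pow_mem (le' ht) i), th,
    ← hT'.sum_of (Finset.range n ×ˢ T) (fun x => x.2 * t ^ x.1)
      (fun x m => mul_mem (hT.mem _ (Finset.mem_product.1 m).2) (pow_mem (le' ht) _))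
      (fun g hg => ?_) (fun x m x' m' e => ?_) (fun g => ω g * lam (ga g y))
      (o.inv (fun u m => h1 u (le m)) hy), Finset.sum_product]
  · refine Finset.sum_congr rfl fun i _ => Finset.sum_congr rfl fun g m => ?_
    rw [o.mul g (hT.mem g m) _ (pow_mem (le' ht) i), h1 _ (pow_mem ht i), mul_one, ga_mul]
  · obtain ⟨r, hr, m⟩ := hT.ex g hg
    obtain ⟨i, hi⟩ := g2 _ m
    refine ⟨(i % n, r), Finset.mem_product.2 ⟨Finset.mem_range.2 (Nat.mod_lt _ n0), hr⟩, ?_⟩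
    have := mul_mem ((g1 (n * (i / n))).2 (dvd_mul_right _ _)) (inv_mem hi)
    convert this using 1
    conv_rhs => rw [← Nat.mod_add_div i n, pow_add]
    simp only [Nat.mod_add_div]
    group
  · obtain ⟨i, r⟩ := x
    obtain ⟨i', r'⟩ := x'
    simp only [Finset.mem_product, Finset.mem_range] at m m'
    obtain rfl : r = r' := hT.un r m.2 r' m'.2 (by
      simpa [mul_assoc] using mul_mem (mul_mem (pow_mem ht i) (le e)) (inv_mem (pow_mem ht i')))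
    have k : ∀ i i' : ℕ, i ≤ i' → i' < n → (t ^ i)⁻¹ * t ^ i' ∈ U' → i = i' := fun i i' h h' e => by
      obtain ⟨d, rfl⟩ := Nat.exists_eq_add_of_le h
      rw [pow_add, inv_mul_cancel_left, g1] at e
      rw [Nat.eq_zero_of_dvd_of_lt e (by omega), add_zero]
    replace e : (t ^ i)⁻¹ * t ^ i' ∈ U' := by simpa [mul_assoc] using e
    rcases le_total i i' with h | h
    · rw [k i i' h m'.1 e]
    · rw [k i' i h m.1 (by simpa using inv_mem e)]

variable {N : ℕ} {a : ℕ → ℤ} {φ : ℕ → GQ}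

theorem Ok.op_mem (hF : y ∈ F) {ψ : GQ} (h : ψ ∈ Γ) (p : ℕ) : op N a p ψ y ∈ F := by
  rw [op_ap]
  refine add_mem (sub_mem (nsmul_mem hF _) (zsmul_mem (o.st y hF _ h) _)) ?_
  split_ifs
  exacts [zero_mem _, o.st _ (o.st y hF _ h) _ h]

theorem Ok.lp_mem (hF : y ∈ F) {L : List ℕ} (hL : ∀ p ∈ L, φ p ∈ Γ) : lp N a φ L y ∈ F := by
  induction L with
  | nil => exact hF
  | cons p L ih =>
    exact o.op_mem (ih fun q m => hL q (List.mem_cons_of_mem _ m)) (hL p List.mem_cons_self) p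

theorem Ok.th_lp (h2 : (2 : R) = 0) (hT : Tv Γ U T) (n : Nz Γ U) (le : U ≤ Γ)
    (h1 : ∀ u ∈ U, ω u = 1) (hF : y ∈ F) (ab : Ab Γ y) (hy : ∀ u ∈ U, ga u y = y) {L : List ℕ}
    (hL : ∀ p ∈ L, φ p ∈ Γ ∧ Odd p ∧ ¬ p ∣ N) :
    (L.map fun p => ω (φ p)).prod ^ 2 * th lam ω T (lp N a φ L y) =
      (L.map fun p => a p * ω (φ p) - 1 - ω (φ p) ^ 2).prod * th lam ω T y := by
  induction L with
  | nil => simp [lp]
  | cons p L ih =>
    have k := fun q m => hL q (List.mem_cons_of_mem _ m)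
    have k1 := fun q m => (k q m).1
    obtain ⟨m, ⟨s, hs⟩, pN⟩ := hL p List.mem_cons_self
    have z := o.lp_mem (N := N) (a := a) hF k1
    have f : ∀ u ∈ U, ga u (lp N a φ L y) = lp N a φ L y := fun u hu => by
      rw [lp_ga k1 y ab u (le hu), hy u hu]
    have e1 := o.th_ga hT n h1 f m
    have e2 := o.th_ga hT n h1 (y := ga (φ p) (lp N a φ L y)) (fun u hu => by
      rw [lp_ab k1 ab u (le hu) _ m, f u hu]) m
    rw [lp_cons, op_ap, if_neg pN, o.th_add hT (sub_mem (nsmul_mem z _) (zsmul_mem (o.st _ z _ m) _))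
      (o.st _ (o.st _ z _ m) _ m), o.th_sub hT (nsmul_mem z _) (zsmul_mem (o.st _ z _ m) _),
      o.th_n hT z, o.th_z hT (o.st _ z _ m), List.map_cons, List.prod_cons, List.map_cons,
      List.prod_cons, mul_assoc, ← ih k, show (p : R) = 2 * s + 1 by rw [hs]; push_cast; rfl]
    linear_combination (L.map fun p => ω (φ p)).prod ^ 2 * (ω (φ p) * e2 + (1 - a p * ω (φ p)) * e1 +
      ((s + 1) * ω (φ p) ^ 2 - a p * ω (φ p) + 1) * th lam ω T (lp N a φ L y) * h2)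

end th

end Vale.Agent.P004F.Dp
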