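import Vale.Agent.P004F.St
import Vale.Agent.P004F.Dp.A

/-! # P004F, row DPL: the analytic side after the change of conductor -/

set_option linter.all false

open NumberField Polynomial
open scoped Classical

noncomputable section

namespace Vale.Agent.P004F

open Vale.Agent.P022 Vale.Agent.P004K
open Vale.Agent.P022K.G2 (Tv Nz)
open Vale.Agent.P022E.GW (Ov Fb)
open P004M.TE (Pt ga ga_mul ga_one)
open Qx (zf Fk op gE dep)
open P004R.Sf

namespace Dp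

/-- `l` splits, `ψ` is a Frobenius element -/
def Sq {K : Type} [Field K] (j : K →+* Qb) (l : ℕ) (ψ : GQ) : Prop := ψ ∈ GK j ∧ ∃ P L, Ov l P ∧
  Fb l P ψ ∧ below j P ⊔ L = ⊤ ∧ below j P * L = Ideal.span {(l : 𝓞 K)}

theorem split {K : Type} [Field K] [NumberField K] {j : K →+* Qb} (iq : Iq K) {θ : 𝓞 K} {δ : ℕ}
    (th : θ ^ 2 = -(δ : 𝓞 K)) {c : GQ} (cc : IsConj c) {q : ℕ} {P : Ideal (𝓞 Qb)} {ψ : GQ}
    (o : Ov q P) (f : Fb q P ψ) (m : ψ ∈ GK j) (hq : ¬ q ∣ 4 * δ) : Sq j q ψ := by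
  have n := H20.norm_of_frob_mem iq.two o.1 j o.2.1 o.2.2 f m
  set j' := (c : Qb →+* Qb).comp j
  have n' := H20.norm_of_norm iq.two o.1 (H20.below_prime j' o.2.1) (H20.l_mem_below j' o.2.2) n
  have e : (j θ) ^ 2 = -(δ : Qb) := by
    simpa using congrArg (j.comp (algebraMap (𝓞 K) K)) th
  have e1 : c (j θ) = -j θ := by
    refine (sq_eq_sq_iff_eq_or_eq_neg.1 (show c (j θ) ^ 2 = j θ ^ 2 by
      rw [← map_pow, e, map_neg, map_natCast])).resolve_left fun h => hq ?_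
    obtain ⟨φ, hφ⟩ := cc
    have h1 := hφ (j θ)
    rw [h, eq_comm, Complex.conj_eq_iff_real] at h1
    obtain ⟨r, hr⟩ := h1
    have h2 := congrArg φ e
    rw [map_pow, hr, map_neg, map_natCast] at h2
    have h3 : r ^ 2 = -δ := by exact_mod_cast h2
    have : (δ : ℝ) = 0 := le_antisymm (by nlinarith [sq_nonneg r]) δ.cast_nonneg
    simp [Nat.cast_eq_zero.1 this]
  have ne : below j P ≠ below j' P := fun h => hq (by
    obtain ⟨t, ht⟩ := H20.exists_int o.1 n θ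
    have h1 := h ▸ ht
    rw [H20.mem_below, map_sub, map_intCast] at ht h1
    rw [show RingOfIntegers.mapRingHom j' θ = -RingOfIntegers.mapRingHom j θ from
      RingOfIntegers.ext e1] at h1
    have := P.mul_mem_left (-(2 * RingOfIntegers.mapRingHom j θ)) (sub_mem ht h1)
    rw [← Int.natCast_dvd_natCast]
    refine H20.dvd_of_mem o.1 o.2.1 o.2.2 ?_
    have e2 := congrArg (RingOfIntegers.mapRingHom j) th
    rw [map_pow, map_neg, map_natCast] at e2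
    convert this using 1
    push_cast
    linear_combination 4 * e2)
  exact ⟨m, P, _, o, f, ((H20.below_prime j o.2.1).isMaximal (H20.ne_bot_of_mem o.1
    (H20.l_mem_below j o.2.2))).coprime_of_ne ((H20.below_prime j' o.2.1).isMaximal
      (H20.ne_bot_of_mem o.1 (H20.l_mem_below j' o.2.2))) ne, H20.mul_eq_span iq.two o.1 n n' ne⟩

variable {e : Crv} (b : Fld e)

theorem tv_iff {c : ℕ} {T : Finset GQ} : b.Tv c T ↔ Tv b.Γ (Hc b.j c) T :=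
  ⟨fun h => ⟨h.1, fun g hg => (h.2 g hg).exists.imp fun r hr => ⟨hr.1, by simpa using inv_mem hr.2⟩,
    fun r hr r' hr' m => (h.2 r (h.1 r hr)).unique ⟨hr, by simpa using one_mem _⟩ ⟨hr', m⟩⟩,
  fun h => ⟨h.mem, fun g hg => by
    obtain ⟨r, hr, m⟩ := h.ex g hg
    exact ⟨r, ⟨hr, by simpa using inv_mem m⟩, fun r' hr' =>
      (h.un r hr r' hr'.1 (by simpa [mul_assoc] using mul_mem m hr'.2)).symm⟩⟩⟩

/-- the depleted point -/
abbrev yd (c : ℕ) : Pt e.A e.B := dep e.N e.w e.a e.S' b.φ (b.Y c)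

theorem phi_S' : ∀ p ∈ e.S', b.φ p ∈ b.Γ := fun p m => b.ch.mem p (List.mem_of_mem_filter m)

theorem dep_ga {y : Pt e.A e.B} (h : Ab b.Γ y) {g : GQ} (hg : g ∈ b.Γ) :
    ga g (dep e.N e.w e.a e.S' b.φ y) = dep e.N e.w e.a e.S' b.φ (ga g y) := by
  rw [dep_ap, dep_ap, map_nsmul, lp_ga (phi_S' b) y h g hg]

section

variable (r1 : P004K.RC1) {c : ℕ} (c0 : 0 < c) (cp : c.Coprime (e.N * e.S'.prod))
include r1 c0

theorem nz : Nz b.Γ (Hc b.j c) := fun g _ u hu => (r1 b.K b.j b.iq c c0).2.2.1.conj_mem u hu g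

include cp

theorem ab : Ab b.Γ (b.Y c) := fun g hg h hh => by
  rw [← ga_mul, ← ga_mul, show g * h = h * g * (g⁻¹ * h⁻¹ * g⁻¹⁻¹ * h⁻¹⁻¹) by group,
    ga_mul (h * g), b.fx c c0 cp.coprime_mul_right_right _
      ((r1 b.K b.j b.iq c c0).2.2.2.1 _ (inv_mem hg) _ (inv_mem hh))]

theorem yd_fx : ∀ u ∈ Hc b.j c, ga u (yd b c) = yd b c := fun u hu => by
  rw [dep_ga b (ab b r1 c0 cp) hu.1, b.fx c c0 cp.coprime_mul_right_right u hu]

theorem yd_ab : Ab b.Γ (yd b c) := fun g hg h hh => by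
  have a := ab b r1 c0 cp
  rw [dep_ga b a hg, dep_ga b a hh, dep_ga b (a.ga hg) hh, dep_ga b (a.ga hh) hg, a g hg h hh]

end

variable {b} {R : Type} [CommRing R] {F : AddSubgroup (Pt e.A e.B)} {lam : Pt e.A e.B → R}
  {ω : GQ → R} (r1 : P004K.RC1) (r2 : P004K.RC2) (r3 : P004K.RC3) (o : Ok b.Γ F lam ω)
  (hF : ∀ c, 0 < c → c.Coprime (e.N * e.S'.prod) → yd b c ∈ F)
include r1 r2 r3 o hF

theorem step {c l : ℕ} {ψ : GQ} {T T' : Finset GQ} (c0 : 0 < c) (cp : c.Coprime (e.N * e.S'.prod))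
    (s : Sq b.j l ψ) (hl : ¬ l ∣ c) (hl' : ¬ l ∣ e.N * e.S'.prod) (h1 : ∀ u ∈ Hc b.j c, ω u = 1)
    (hT : Tv b.Γ (Hc b.j c) T) (hT' : Tv b.Γ (Hc b.j (c * l)) T') :
    ω ψ * th lam ω T' (yd b (c * l)) = (e.a l * ω ψ - 1 - ω ψ ^ 2) * th lam ω T (yd b c) := by
  obtain ⟨m, P, L, ov, fb, co, mu⟩ := s
  have n := H20.norm_of_frob_mem b.iq.two ov.1 b.j ov.2.1 ov.2.2 fb m
  have l1 := ov.1.one_lt
  have t1 := (H20.below_prime b.j ov.2.1).ne_top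
  have t2 : L ≠ ⊤ := fun h => by
    rw [h, Ideal.mul_top] at mu
    rw [mu, H20.absNorm_span_l b.iq.two] at n
    nlinarith
  have cl := (Nat.Prime.coprime_iff_not_dvd ov.1).2 hl
  have cop : ∀ I : Ideal (𝓞 b.K), (l : 𝓞 b.K) ∈ I → Cop c I := fun I h =>
    ⟨H20.ne_bot_of_mem ov.1 h, by
      obtain ⟨x, y, k⟩ := Nat.Coprime.cast (R := 𝓞 b.K) cl
      rw [Ideal.eq_top_iff_one, ← k]
      exact add_mem (Ideal.mem_sup_left (I.mul_mem_left _ h))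
        (Ideal.mem_sup_right (Ideal.mul_mem_left _ _ (Ideal.mem_span_singleton_self _)))⟩
  have k1 := cop _ (H20.l_mem_below b.j ov.2.2)
  have k2 := cop L (Ideal.mul_le_right (I := below b.j P) (mu ▸ Ideal.mem_span_singleton_self _))
  obtain ⟨a1, -, a3, -, a5, -, a7⟩ := r2 b.K b.j b.iq c c0
  obtain ⟨g, hg⟩ := a1 L k2
  have hψ : Ar b.j c (below b.j P) ψ := by
    simpa using a7 P ov.2.1 (fun h => ov.1.ne_zero (by simpa [h] using ov.2.2)) (fun h => hl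
      (Int.natCast_dvd_natCast.1 (H20.dvd_of_mem ov.1 ov.2.1 ov.2.2 (by simpa using h)))) ψ m 1
      (by rw [n, pow_one]; exact fb)
  have e1 : ω ψ * ω g = 1 := by
    rw [← o.mul ψ m g hg.1]
    exact h1 _ ((a5 _ _ (cop _ (mu ▸ Ideal.mem_span_singleton_self _))
      (a3 _ _ _ _ k1 k2 hψ hg)).2 ⟨l, 0, by simpa using mu⟩)
  obtain ⟨t, -, ht⟩ := (r3 b.K b.j b.iq b.upm).2 l (l - 1)
    ⟨ov.1, Or.inr ⟨⟨_, L, co, t1, t2, mu⟩, by omega⟩⟩ P ov.2.1 ov.2.2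
  have gn := ht c c0 hl
  have c1 : 0 < c * l := by positivity
  have cp' : (c * l).Coprime (e.N * e.S'.prod) :=
    cp.mul_left ((Nat.Prime.coprime_iff_not_dvd ov.1).2 hl')
  have sp := congrArg (dep e.N e.w e.a e.S' b.φ) (b.spl c l (l - 1) t c0 cp.coprime_mul_right_right
    ov.1 (fun h => ((Nat.Prime.dvd_mul ov.1).1 h).elim hl fun h => hl' (h.mul_right _)) gn _ L ψ g
    co t1 t2 mu hψ hg)
  rw [map_sum, map_sub, map_sub, map_zsmul, ← dep_ga b (ab b r1 c0 cp) m,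
    ← dep_ga b (ab b r1 c0 cp) hg.1, Finset.sum_congr rfl fun i _ =>
      (dep_ga b (ab b r1 c1 cp') (pow_mem gn.1.1 i)).symm] at sp
  have z := hF c c0 cp
  have e2 := o.th_ga hT (nz b r1 c0) h1 (yd_fx b r1 c0 cp) m
  have e3 := o.th_ga hT (nz b r1 c0) h1 (yd_fx b r1 c0 cp) hg.1
  rw [o.th_tr hT hT' ((r1 b.K b.j b.iq c c0).2.2.2.2.2 l ov.1.pos) inf_le_left h1 (hF _ c1 cp')
    (yd_fx b r1 c1 cp') (by omega : 0 < l - 1) gn.1 gn.2.1 gn.2.2, sp,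
    o.th_sub hT (sub_mem (zsmul_mem z _) (o.st _ z _ m)) (o.st _ z _ hg.1),
    o.th_sub hT (zsmul_mem z _) (o.st _ z _ m), o.th_z hT z]
  linear_combination -e2 - ω ψ ^ 2 * e3 + ω ψ * th lam ω T (ga g (yd b c)) * e1

theorem up {D : List ℕ} (nd : D.Nodup) (hD : ∀ p ∈ D, p.Prime ∧ Sq b.j p (b.φ p) ∧
    ¬ p ∣ e.N * e.S'.prod) : ∀ (c : ℕ) (T T' : Finset GQ), 0 < c → c.Coprime (e.N * e.S'.prod) →
    (∀ p ∈ D, ¬ p ∣ c) → (∀ u ∈ Hc b.j c, ω u = 1) → Tv b.Γ (Hc b.j c) T →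
    Tv b.Γ (Hc b.j (c * D.prod)) T' →
    (D.map fun p => ω (b.φ p)).prod * th lam ω T' (yd b (c * D.prod)) =
      (D.map fun p => e.a p * ω (b.φ p) - 1 - ω (b.φ p) ^ 2).prod * th lam ω T (yd b c) := by
  induction D with
  | nil =>
    intro c T T' c0 cp _ h1 hT hT'
    simp only [List.prod_nil, mul_one, List.map_nil, one_mul] at hT' ⊢
    exact hT.sum_of T' id hT'.mem hT'.ex hT'.un (fun g => ω g * lam (ga g (yd b c)))
      (o.inv h1 (yd_fx b r1 c0 cp))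
  | cons p D ih =>
    intro c T T' c0 cp hc h1 hT hT'
    obtain ⟨pp, s, pN⟩ := hD p List.mem_cons_self
    have k := fun q m => hD q (List.mem_cons_of_mem _ m)
    have c1 : 0 < c * p := mul_pos c0 pp.pos
    rw [List.prod_cons, ← mul_assoc] at hT' ⊢
    obtain ⟨T1, h⟩ := P022K.G2.ex_tv (Γ := b.Γ) (U := Hc b.j (c * p)) fun h => hT'.ne
      (Nat.eq_zero_of_zero_dvd (h ▸ Subgroup.relIndex_dvd_of_le_left _
        ((r1 b.K b.j b.iq _ c1).2.2.2.2.2 _ (List.prod_pos fun q m => (k q m).1.pos))))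
    have e1 := step r1 r2 r3 o hF c0 cp s (hc p List.mem_cons_self) pN h1 hT h
    have e2 := ih nd.of_cons k (c * p) T1 T' c1
      (cp.mul_left ((Nat.Prime.coprime_iff_not_dvd pp).2 pN))
      (fun q m d => ((Nat.Prime.dvd_mul (k q m).1).1 d).elim (hc q (List.mem_cons_of_mem _ m))
        fun d => nd.notMem ((Nat.prime_dvd_prime_iff_eq (k q m).1 pp).1 d ▸ m))
      (fun u hu => h1 u ((r1 b.K b.j b.iq c c0).2.2.2.2.2 p pp.pos hu)) h hT'
    simp only [List.map_cons, List.prod_cons]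
    linear_combination ω (b.φ p) * e2 +
      (D.map fun p => e.a p * ω (b.φ p) - 1 - ω (b.φ p) ^ 2).prod * e1

omit r1 r2 r3 o hF

theorem cancel {k : Type} [CommRing k] {l s : ℕ} {v f : k[X]}
    (h : X ^ (l + s) ∣ X ^ s * (1 + X * v) * f) : X ^ l ∣ f := by
  rw [pow_add, mul_comm, mul_assoc] at h
  obtain ⟨c, hc⟩ := h
  rw [mul_assoc] at hc
  exact IsCoprime.dvd_of_dvd_mul_left (IsCoprime.pow_left ⟨-v, 1, by ring⟩)
    ⟨c, (monic_X_pow s).isRegular.left hc⟩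

theorem ex_pi (k : Type) [CommRing k] (m : ℕ) : ∃ (R : Type) (_ : CommRing R) (π : k[X] →+* R),
    ∀ f, π f = 0 ↔ X ^ m ∣ f := ⟨_, _, Ideal.Quotient.mk (Ideal.span {(X : k[X]) ^ m}), fun f =>
  Ideal.Quotient.eq_zero_iff_mem.trans Ideal.mem_span_singleton⟩

theorem prod_S (L : List ℕ) (δ : ℕ) :
    L.prod = (L.filter fun p => p ∣ δ).prod * (L.filter fun p => ¬ p ∣ δ).prod := by
  induction L with
  | nil => rfl
  | cons p L ih => by_cases h : p ∣ δ <;> simp [List.filter_cons, h, ih] <;> ring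

theorem prod_D (e : Crv) : (e.S.filter fun p => p ∣ e.δ).prod = e.δ := by
  rw [← List.map_id (e.S.filter _), ← List.prod_toFinset id (e.nd.filter _)]
  refine Eq.trans (Finset.prod_congr (Finset.ext fun p => ?_) fun _ _ => rfl)
    (Nat.prod_primeFactors_of_squarefree e.ok.sq)
  simp only [List.mem_toFinset, List.mem_filter, decide_eq_true_eq,
    Nat.mem_primeFactors_of_ne_zero e.ok.sq.ne_zero]
  exact ⟨fun h => ⟨(e.ov p h.1).1, h.2⟩,
    fun h => ⟨by_contra fun k => (e.bad p h.1 k).1 (h.2.mul_left _), h.2⟩⟩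

theorem ndvd (e : Crv) {p : ℕ} (hp : p.Prime) (h : p ∉ e.S') (hN : ¬ p ∣ e.N) :
    ¬ p ∣ e.N * e.S'.prod := fun d => ((Nat.Prime.dvd_mul hp).1 d).elim hN fun d => by
  obtain ⟨q, m, d⟩ := (Prime.dvd_prod_iff hp.prime).1 d
  exact h ((Nat.prime_dvd_prime_iff_eq hp (e.ov q (List.mem_of_mem_filter m)).1).1 d ▸ m)

theorem ndvd' (e : Crv) {p : ℕ} (hp : p.Prime) (h : p ∉ e.S) : ¬ p ∣ e.N * e.S'.prod :=
  ndvd e hp (fun m => h (List.mem_of_mem_filter m)) fun d => (e.bad p hp h).1 (d.mul_right _)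

include r1 r2 r3 o hF in
theorem key {m n c q v : ℕ} {χ : GQ → ℕ} (tw : b.Tw m n c χ) (xq : b.Xq c χ q v) (p3 : (2 : R) = 0)
    (hu : ∀ g, IsUnit (ω g)) (h1 : ∀ u ∈ Hc b.j c, ω u = 1) {T' : Finset GQ}
    (hT' : Tv b.Γ (Hc b.j (e.δ * (c * q))) T')
    (z : yd b (e.δ * (c * q)) ∈ F → th lam ω T' (yd b (e.δ * (c * q))) = 0) :
    ∃ T Q ψ, Tv b.Γ (Hc b.j c) T ∧ Ov q Q ∧ Fb q Q ψ ∧ dep e.N e.w e.a e.S b.φ (b.Y c) ∈ F ∧
      (ω ψ ^ 2 + 1) * th lam ω T (dep e.N e.w e.a e.S b.φ (b.Y c)) = 0 := by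
  have c0 : 0 < c := one_pos.trans tw.one
  have cS : ∀ p, p.Prime → p ∣ c → p ∉ e.S := fun p hp d =>
    (tw.gp p (Nat.mem_primeFactors.2 ⟨hp, d, c0.ne'⟩)).out
  have cp : c.Coprime (e.N * e.S'.prod) := Nat.coprime_of_dvd fun p hp d => ndvd' e hp (cS p hp d)
  have qS : q ∉ e.S := fun h => xq.out (Finset.mem_union_left _ (List.mem_toFinset.2 h))
  have qc : ¬ q ∣ c := fun h =>
    xq.out (Finset.mem_union_right _ (Nat.mem_primeFactors.2 ⟨xq.pr, h, c0.ne'⟩))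
  have c1 : 0 < c * q := mul_pos c0 xq.pr.pos
  have le := (r1 b.K b.j b.iq c c0).2.2.2.2.2 q xq.pr.pos
  set D := e.S.filter fun p => p ∣ e.δ with hD
  have dD : D.prod = e.δ := prod_D e
  have kD : ∀ p ∈ D, p ∈ e.S ∧ p ∣ e.δ := fun p m => by simpa [hD] using m
  have nD : ∀ p ∈ D, ¬ p ∣ e.N := fun p m d => (e.ov p (kD p m).1).1.ne_one
    (Nat.eq_one_of_dvd_coprimes e.ok.cop d (kD p m).2)
  rw [mul_comm, ← dD] at hT' z
  have i1 : (Hc b.j (c * q)).relIndex b.Γ ≠ 0 := fun h => hT'.ne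
    (Nat.eq_zero_of_zero_dvd (h ▸ Subgroup.relIndex_dvd_of_le_left _
      ((r1 b.K b.j b.iq _ c1).2.2.2.2.2 _ (dD ▸ one_pos.trans e.ok.one))))
  obtain ⟨T1, hT1⟩ := P022K.G2.ex_tv i1
  obtain ⟨T, hT⟩ := P022K.G2.ex_tv (Γ := b.Γ) (U := Hc b.j c) fun h => i1
    (Nat.eq_zero_of_zero_dvd (h ▸ Subgroup.relIndex_dvd_of_le_left _ le))
  obtain ⟨Q, hQ, mQ⟩ := H916.exists_prime xq.pr
  obtain ⟨ψ, fb⟩ := P022D.W.exists_phi xq.pr hQ mQ
  have ov : Ov q Q := ⟨xq.pr, hQ, mQ⟩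
  have dq := P022D.W.phi_mem xq.pr hQ fb
  have e1 := step r1 r2 r3 o hF c0 cp (split b.iq b.th b.cc ov fb (xq.spl Q ov dq) fun d =>
    ((Nat.Prime.dvd_mul xq.pr).1 d).elim (fun d => qS ((Nat.prime_dvd_prime_iff_eq xq.pr
      Nat.prime_two).1 (xq.pr.dvd_of_dvd_pow (show q ∣ 2 ^ 2 from d)) ▸ e.two)) xq.cop)
    qc (ndvd' e xq.pr qS) h1 hT hT1
  have e2 := up r1 r2 r3 o hF (e.nd.filter _) (fun p m => ⟨(e.ov p (kD p m).1).1,
      ⟨b.ch.mem p (kD p m).1, _, _, e.ov p (kD p m).1, b.ch.frb p (kD p m).1,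
        (b.ch.spl p (kD p m).1).cop, (b.ch.spl p (kD p m).1).mul⟩,
      ndvd e (e.ov p (kD p m).1).1 (fun k => by simpa [(kD p m).2] using (List.mem_filter.1 k).2)
        (nD p m)⟩) (c * q) T1 T' c1
    (cp.mul_left ((Nat.Prime.coprime_iff_not_dvd xq.pr).2 (ndvd' e xq.pr qS)))
    (fun p m d => ((Nat.Prime.dvd_mul (e.ov p (kD p m).1).1).1 d).elim
      (fun d => cS p (e.ov p (kD p m).1).1 d (kD p m).1) fun d =>
        qS ((Nat.prime_dvd_prime_iff_eq (e.ov p (kD p m).1).1 xq.pr).1 d ▸ (kD p m).1))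
    (fun u hu => h1 u (le hu)) hT1 hT'
  have kφ : ∀ p ∈ D, b.φ p ∈ b.Γ := fun p m => b.ch.mem p (kD p m).1
  have e3 := o.th_lp (N := e.N) (a := e.a) p3 hT (nz b r1 c0) inf_le_left h1 (hF c c0 cp)
    (yd_ab b r1 c0 cp) (yd_fx b r1 c0 cp) fun p m =>
      ⟨kφ p m, e.ok.odd.of_dvd_nat (kD p m).2, nD p m⟩
  have aq : ((e.a q : ℤ) : R) = 0 := by
    have k := congrArg PadicInt.toZMod ((e.bad q xq.pr qS).2.2 ψ ⟨Q, hQ, mQ, fb⟩)
    rw [AddMonoidHom.map_trace, show (P004M.TE.mt (hq e.par.disc) ψ).map _ = 1 from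
      xq.res Q ov ψ dq, map_intCast, Matrix.trace_one, eq_comm] at k
    obtain ⟨s, hs⟩ := (ZMod.intCast_zmod_eq_zero_iff_dvd _ 2).1 (k.trans (by decide))
    rw [hs]; push_cast; rw [p3, zero_mul]
  have mz := o.lp_mem (N := e.N) (a := e.a) (hF c c0 cp) kφ
  have ed : dep e.N e.w e.a e.S b.φ (b.Y c) = e.δ • lp e.N e.a b.φ D (yd b c) := by
    rw [dep_ap, yd, dep_ap, map_nsmul, lp_split b.ch.mem (ab b r1 c0 cp) e.δ, prod_S e.S e.δ,
      ← mul_smul, ← hD, dD, mul_left_comm]; rfl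
  rw [z (hF _ (mul_pos c1 (dD ▸ one_pos.trans e.ok.one)) ?_), mul_zero] at e2
  · refine ⟨T, Q, ψ, hT, ov, fb, ed ▸ nsmul_mem mz _, ?_⟩
    obtain ⟨d, hd⟩ := e.ok.odd
    rw [ed, o.th_n hT mz, show ((e.δ : ℕ) : R) = 1 by rw [hd]; push_cast; rw [p3, zero_mul, zero_add],
      one_mul]
    refine ((List.prod_isUnit (L := D.map fun p => ω (b.φ p)) fun x m => ?_).pow
      2).mul_right_eq_zero.1 ?_
    · obtain ⟨p, -, rfl⟩ := List.mem_map.1 m
      exact hu _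
    rw [aq] at e1
    linear_combination (ω ψ ^ 2 + 1) * e3 + ω ψ * e2 +
      (D.map fun p => e.a p * ω (b.φ p) - 1 - ω (b.φ p) ^ 2).prod * e1
  · refine (cp.mul_left ((Nat.Prime.coprime_iff_not_dvd xq.pr).2 (ndvd' e xq.pr qS))).mul_left
      (Nat.coprime_of_dvd fun p hp d => ?_)
    obtain ⟨r, m, d⟩ := (Prime.dvd_prod_iff hp.prime).1 d
    obtain rfl := (Nat.prime_dvd_prime_iff_eq hp (e.ov r (kD r m).1).1).1 d
    exact ndvd e hp (fun k => by simpa [(kD p m).2] using (List.mem_filter.1 k).2) (nD p m)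

theorem fin {k R : Type} [CommRing k] [CommRing R] (π : k[X] →+* R) {l n v s : ℕ}
    (π0 : ∀ f, π f = 0 ↔ X ^ (l + 1 + 2 * 2 ^ v) ∣ f) (p2 : (2 : k[X]) = 0) (hs : Odd s) {f : k[X]}
    (h : ((π (1 + X) ^ (2 ^ v * s)) ^ 2 + 1) * π f = 0) : X ^ (l + 1) ∣ f := by
  obtain ⟨x, hx⟩ := odd_pow p2 (X ^ 2 ^ v) hs
  refine cancel (s := 2 * 2 ^ v) (v := X ^ (2 ^ v - 1) * x) ((π0 _).1 ?_)
  rw [← mul_assoc X, ← pow_succ' X, Nat.sub_add_cancel Nat.one_le_two_pow, mul_comm 2, pow_mul, ← hx,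
    ← pow_two_pow p2, map_mul, map_add, map_pow, map_pow, map_one, ← h, ← pow_mul, ← pow_mul,
    mul_comm 2, mul_assoc]

end Dp

open Dp in
theorem dpl (r1 : P004K.RC1) (r2 : P004K.RC2) (r3 : P004K.RC3) (fg : Qx.FG) : DPL := by
  intro e b m n c χ q v l tw xq hl an T' hT'
  obtain ⟨-, hP, h2⟩ := e.ov 2 e.two
  replace h2 : (2 : 𝓞 Qb) ∈ e.P 2 := by simpa using h2
  have s2 : 2 ∈ e.S' := List.mem_filter.2 ⟨e.two, by simpa using e.ok.odd.not_two_dvd_nat⟩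
  have p0 : e.S'.prod ≠ 0 :=
    (List.prod_pos fun p m => (e.ov p (List.mem_of_mem_filter m)).1.pos).ne'
  obtain ⟨f0, -, -, -, -, f1⟩ := fg e.A e.B e.par.disc _ hP fun h => by simp [h] at h2
  replace f1 := (f1 _ (pow_ne_zero 2 p0)).1
  let F : AddSubgroup (Pt e.A e.B) := AddSubgroup.ofSub
    {y | ∀ g ∈ b.Γ, Fk (e.P 2) (e.S'.prod ^ 2) (ga g y)}
    ⟨0, fun g _ => by
      rw [map_zero]
      exact ⟨f0, by rw [show zf (0 : Pt e.A e.B) = 0 from rfl, zero_div]; exact (Ao _).zero_mem⟩⟩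
    fun x hx y hy g hg => by
      rw [← sub_eq_add_neg, map_sub]; exact (f1 _ _ (hx g hg) (hy g hg)).1
  have mF : ∀ y, y ∈ F ↔ ∀ g ∈ b.Γ, Fk (e.P 2) (e.S'.prod ^ 2) (ga g y) := fun _ => Iff.rfl
  obtain ⟨R, _, π, π0⟩ := ex_pi (Ao (e.P 2) ⧸ Zo (e.P 2)) (l + 1 + 2 * 2 ^ v)
  have p2 : (2 : (Ao (e.P 2) ⧸ Zo (e.P 2))[X]) = 0 := by rw [← map_ofNat C, two h2, map_zero]
  have p3 := congrArg π p2
  rw [map_ofNat, map_zero] at p3
  have w1 : π (1 + X) ^ 2 ^ n = 1 := by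
    rw [← map_pow, pow_two_pow p2, map_add, map_one, (π0 _).2 (pow_dvd_pow _ (by omega)), add_zero]
  have wu : IsUnit (π (1 + X)) := IsUnit.of_pow_eq_one w1 (by positivity)
  have o : Ok b.Γ F (fun y => π (C (rs (e.P 2) (zf y / (e.S'.prod ^ 2 : ℕ)))))
      fun g => π (1 + X) ^ χ g :=
    ⟨fun y hy g hg => (mF _).2 fun h hh => by rw [← ga_mul]; exact hy _ (mul_mem hh hg),
      fun y hy y' hy' => by
        have a := hy 1 (one_mem _)
        have a' := hy' 1 (one_mem _)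
        rw [ga_one] at a a'
        rw [rs_eq (f1 _ _ a a').1.2 ((Ao _).sub_mem a.2 a'.2) (f1 _ _ a a').2, rs_sub a.2 a'.2,
          map_sub, map_sub],
      fun g hg h hh => by rw [← pow_add, pow_eq_pow_of_modEq (tw.add g hg h hh) w1]⟩
  have hF : ∀ c, 0 < c → c.Coprime (e.N * e.S'.prod) → yd b c ∈ F := fun c c0 cp g hg =>
    b.qx c c0 cp g hg 2 s2
  have eκ : ∀ z : Qb, z / (e.S.prod ^ 2 : ℕ) = z / (e.S'.prod ^ 2 : ℕ) / (e.δ ^ 2 : ℕ) := fun z => by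
    rw [prod_S e.S e.δ, prod_D, div_div, ← Nat.cast_mul, ← mul_pow, mul_comm]; rfl
  by_contra! z
  rw [tv_iff] at hT'
  obtain ⟨T, Q, ψ, hT, ov, fb, mz, k⟩ := key r1 r2 r3 o hF tw xq p3 (fun g => wu.pow _)
    (fun u hu => by
      obtain ⟨k, hk⟩ := tw.ker u hu
      simp only [hk, pow_mul, w1, one_pow]) hT' fun h => by
      have := (π0 _).2 ((vn fun g hg => (h g (hT'.mem g hg)).2).1 fun i hi => z i (by omega))
      simpa only [Dp.th, map_sum, map_mul, map_pow] using this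
  obtain ⟨⟨s, hs⟩, so⟩ := xq.val Q ov ψ fb
  have kz := fun g hg => rs_odd h2 (mz g hg).2 (e.ok.odd.pow (n := 2))
  obtain ⟨i, hi, ni⟩ := an T ((tv_iff b).2 hT)
  simp only [eκ] at ni
  refine ni ((vn fun g hg => (kz g (hT.mem g hg)).1).2 (fin π (n := n) π0 p2
    (Nat.not_even_iff_odd.1 fun k => so (by
      rw [hs, pow_succ]; exact Nat.mul_dvd_mul_left _ k.two_dvd)) ?_) i (Nat.lt_succ_of_le hi))
  rw [Finset.sum_congr rfl fun g hg => by rw [(kz g (hT.mem g hg)).2], ← hs]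
  simpa only [Dp.th, map_sum, map_mul, map_pow] using k

end Vale.Agent.P004F
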